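import Vale.Agent.P217.Eval

/-!
P217, module M9: separation of coefficients along Frobenius orbits of points.
-/

namespace Vale.Agent.P217.Rigid

noncomputable section

open MvPowerSeries

variable {p : ℕ} [Fact p.Prime] {σ : Type*} [Fintype σ]

/-- The value at a point of a series over the residue field. -/
abbrev ev (G : MvPowerSeries σ (Kb p)) (x : σ → C p) : C p := evalC p HahnSeries.C G x

theorem exists_pow_eq_self (ω : Kb p) : ∃ N : ℕ, 1 ≤ N ∧ ω ^ p ^ N = ω := by
  classical
  set L := IntermediateField.adjoin (ZMod p) ({ω} : Set (Kb p))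
  have hfd : FiniteDimensional (ZMod p) L :=
    IntermediateField.adjoin.finiteDimensional (Algebra.IsIntegral.isIntegral ω)
  have : Finite L := Module.finite_of_finite (ZMod p)
  have := Fintype.ofFinite L
  obtain ⟨N, hN, hcard⟩ := FiniteField.card L p
  refine ⟨N, N.pos, ?_⟩
  have h := FiniteField.pow_card (⟨ω, IntermediateField.mem_adjoin_simple_self _ ω⟩ : L)
  rw [hcard] at h
  exact congrArg Subtype.val h

theorem pow_mul_eq_self {ω : Kb p} {N : ℕ} (h : ω ^ p ^ N = ω) (a : ℕ) :
    ω ^ p ^ (N * a) = ω := by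
  induction a with
  | zero => simp
  | succ a ih => rw [Nat.mul_succ, pow_add, pow_mul, ih, h]

/-- A common period for finitely many constants. -/
theorem exists_period (s : Finset (Kb p)) :
    ∃ N : ℕ, 1 ≤ N ∧ ∀ ω ∈ s, ω ^ p ^ N = ω := by
  classical
  induction s using Finset.induction_on with
  | empty => exact ⟨1, le_rfl, by simp⟩
  | @insert a s ha ih =>
    obtain ⟨N, hN, h⟩ := ih
    obtain ⟨M, hM, h'⟩ := exists_pow_eq_self a
    refine ⟨M * N, Nat.one_le_iff_ne_zero.mpr (Nat.mul_ne_zero (by omega) (by omega)),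
      fun ω hω => ?_⟩
    rcases Finset.mem_insert.mp hω with rfl | hω
    · exact pow_mul_eq_self h' N
    · rw [mul_comm]; exact pow_mul_eq_self (h ω hω) M

theorem ev_pow_char_pow {G : MvPowerSeries σ (Kb p)} {x : σ → C p} (hx : ∀ i, 0 < ord (x i))
    (j : ℕ) :
    ev G x ^ p ^ j =
      ev (MvPowerSeries.map (iterateFrobenius (Kb p) p j) G) (fun i => x i ^ p ^ j) := by
  rw [ev, evalC_pow_char_pow (intCoeff_residue G) hx, ev, evalC_map]
  refine congrArg (fun c => evalC p c G fun i => x i ^ p ^ j) ?_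
  ext ω : 1
  simp [iterateFrobenius_def, map_pow]

theorem ev_pow_of_fixed {G : MvPowerSeries σ (Kb p)} {x : σ → C p} (hx : ∀ i, 0 < ord (x i))
    (j : ℕ) (h : ∀ d, coeff d G ^ p ^ j = coeff d G) :
    ev G (fun i => x i ^ p ^ j) = ev G x ^ p ^ j := by
  rw [ev_pow_char_pow hx]
  congr 1
  ext d
  rw [coeff_map, iterateFrobenius_def, h]

/-- Vectors lie in the span of vectors with distinct valuations. -/
theorem exists_distinct_ord_span {ι : Type*} [DecidableEq ι] (s : Finset ι) (a : ι → C p) :
    ∃ (m : ℕ) (e : Fin m → C p), (∀ ν, e ν ≠ 0) ∧ Function.Injective (fun ν => ord (e ν)) ∧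
      ∀ i ∈ s, ∃ b : Fin m → Kb p, a i = ∑ ν, HahnSeries.C (b ν) * e ν := by
  classical
  induction s using Finset.induction_on with
  | empty => exact ⟨0, Fin.elim0, fun ν => ν.elim0, fun ν => ν.elim0, by simp⟩
  | @insert i s hi ih =>
    obtain ⟨m, e, hne, hinj, hspan⟩ := ih
    have key : ∀ N : ℕ, ∀ v : C p, (Finset.univ.filter fun ν => ord v ≤ ord (e ν)).card ≤ N →
        ∃ (b : Fin m → Kb p) (r : C p), v = ∑ ν, HahnSeries.C (b ν) * e ν + r ∧
          (r = 0 ∨ ∀ ν, ord r ≠ ord (e ν)) := by
      intro N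
      induction N with
      | zero =>
        intro v hv
        refine ⟨0, v, by simp, Or.inr fun ν hν => ?_⟩
        have : ν ∈ Finset.univ.filter (fun ν => ord v ≤ ord (e ν)) :=
          Finset.mem_filter.mpr ⟨Finset.mem_univ _, hν.le⟩
        simp [Finset.card_eq_zero.mp (Nat.le_zero.mp hv)] at this
      | succ N ihN =>
        intro v hv
        by_cases hv0 : v = 0
        · exact ⟨0, 0, by simp [hv0], Or.inl rfl⟩
        by_cases hνe : ∀ ν, ord v ≠ ord (e ν)
        · exact ⟨0, v, by simp, Or.inr hνe⟩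
        push Not at hνe
        obtain ⟨ν, hν⟩ := hνe
        set c : Kb p := v.leadingCoeff / (e ν).leadingCoeff
        set v' : C p := v - HahnSeries.C c * e ν
        have hlt : ord v < ord v' := by
          obtain ⟨γ, hγ⟩ := WithTop.ne_top_iff_exists.mp (mt ord_eq_top.mp hv0)
          rw [← hγ]
          rw [lt_ord_iff]
          intro q hq
          rw [HahnSeries.coeff_sub, HahnSeries.C_mul_eq_smul, HahnSeries.coeff_smul]
          rcases lt_or_eq_of_le hq with hq | hq
          · have h1 : ((q : ℚ) : WithTop ℚ) < ord v := by rw [← hγ]; exact_mod_cast hq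
            have h1' : ((q : ℚ) : WithTop ℚ) < ord (e ν) := by rwa [← hν]
            rw [HahnSeries.coeff_eq_zero_of_lt_orderTop h1,
              HahnSeries.coeff_eq_zero_of_lt_orderTop h1', smul_zero, sub_zero]
          · subst hq
            have h1 : v.coeff q = v.leadingCoeff := by
              rw [HahnSeries.leadingCoeff_of_ne_zero hv0]
              congr 1
              rw [eq_comm, WithTop.untop_eq_iff]
              exact hγ.symm
            have h2 : (e ν).coeff q = (e ν).leadingCoeff := by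
              rw [HahnSeries.leadingCoeff_of_ne_zero (hne ν)]
              congr 1
              rw [eq_comm, WithTop.untop_eq_iff]
              exact hν.symm.trans hγ.symm
            rw [h1, h2, smul_eq_mul, div_mul_cancel₀ _
              (HahnSeries.leadingCoeff_ne_zero.mpr (hne ν)), sub_self]
        obtain ⟨b, r, hbr, hr⟩ := ihN v' (by
          have hss : Finset.univ.filter (fun l => ord v' ≤ ord (e l)) ⊂
              Finset.univ.filter (fun l => ord v ≤ ord (e l)) := by
            rw [Finset.ssubset_iff_of_subset]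
            · refine ⟨ν, Finset.mem_filter.mpr ⟨Finset.mem_univ _, hν.le⟩, fun h => ?_⟩
              exact absurd (Finset.mem_filter.mp h).2 (not_le.mpr (hν ▸ hlt))
            · intro l hl
              exact Finset.mem_filter.mpr
                ⟨Finset.mem_univ _, hlt.le.trans (Finset.mem_filter.mp hl).2⟩
          have := Finset.card_lt_card hss
          omega)
        refine ⟨Function.update b ν (b ν + c), r, ?_, hr⟩
        have : v = v' + HahnSeries.C c * e ν := by simp [v']
        rw [this, hbr, add_right_comm]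
        congr 1
        rw [← Finset.add_sum_erase _ _ (Finset.mem_univ ν),
          ← Finset.add_sum_erase _ (fun l => HahnSeries.C (Function.update b ν (b ν + c) l) * e l)
            (Finset.mem_univ ν), Function.update_self, map_add, add_mul]
        have hcongr : ∀ l ∈ Finset.univ.erase ν,
            HahnSeries.C (Function.update b ν (b ν + c) l) * e l = HahnSeries.C (b l) * e l :=
          fun l hl => by rw [Function.update_of_ne (Finset.ne_of_mem_erase hl)]
        rw [Finset.sum_congr rfl hcongr]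
        abel
    obtain ⟨b, r, hbr, hr⟩ := key _ (a i) le_rfl
    rcases eq_or_ne r 0 with hr0 | hr0
    · refine ⟨m, e, hne, hinj, fun l hl => ?_⟩
      rcases Finset.mem_insert.mp hl with rfl | hl
      · exact ⟨b, by rw [hbr, hr0, add_zero]⟩
      · exact hspan l hl
    · have hrne := hr.resolve_left hr0
      refine ⟨m + 1, Fin.cons r e, fun ν => ?_, ?_, fun l hl => ?_⟩
      · induction ν using Fin.cases with
        | zero => simpa using hr0
        | succ ν => simpa using hne ν
      · intro u w huw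
        induction u using Fin.cases with
        | zero =>
          induction w using Fin.cases with
          | zero => rfl
          | succ w => exact absurd (by simpa using huw) (hrne w)
        | succ u =>
          induction w using Fin.cases with
          | zero => exact absurd (by simpa using huw.symm) (hrne u)
          | succ w => simpa using hinj (by simpa using huw)
      · rcases Finset.mem_insert.mp hl with rfl | hl
        · exact ⟨Fin.cons 1 b, by rw [hbr, Fin.sum_univ_succ]; simp [add_comm]⟩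
        · obtain ⟨b', hb'⟩ := hspan l hl
          exact ⟨Fin.cons 0 b', by rw [hb', Fin.sum_univ_succ]; simp⟩

/-- If a series with coefficients in the valuation ring of `C p` vanishes on a set stable under
q-th powers, so does every series obtained from it by a linear functional. -/
theorem ev_linear_eq_zero (h : ℕ) (hh : 1 ≤ h) (S : Set (σ → C p))
    (hpos : ∀ x ∈ S, ∀ i, 0 < ord (x i))
    (hfrob : ∀ x ∈ S, (fun i => x i ^ p ^ h) ∈ S)
    (a : (σ →₀ ℕ) → C p) (ha : ∀ d, 0 ≤ ord (a d))
    (hvan : ∀ y ∈ S, HasSumC p (fun d => a d * ∏ i, y i ^ d i) 0)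
    (lam : C p →+ Kb p) (hlam : ∀ (c : Kb p) (z : C p), lam (HahnSeries.C c * z) = c * lam z)
    {y : σ → C p} (hy : y ∈ S) :
    ev (show MvPowerSeries σ (Kb p) from fun d => lam (a d)) y = 0 := by
  classical
  set Q : MvPowerSeries σ (Kb p) := fun d => lam (a d)
  show ev Q y = 0
  have hy0 := hpos y hy
  obtain ⟨ε, hε0, hε⟩ := exists_pos_bound hy0
  refine eq_zero_of_forall_lt_ord fun B => ?_
  obtain ⟨D, hD⟩ := exists_nat_gt (B / ε)
  have hDB : B < (D : ℚ) * ε := by rwa [div_lt_iff₀ hε0] at hD
  -- the exponents of total degree below D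
  set T : Finset (σ →₀ ℕ) :=
    ((finite_exponents (σ := σ) D).toFinset).filter fun d => ∑ i, d i < D with hT
  have hTmem : ∀ d, d ∈ T ↔ ∑ i, d i < D := by
    intro d
    simp only [hT, Finset.mem_filter, Set.Finite.mem_toFinset, Set.mem_ofPred_eq, and_iff_right_iff_imp]
    exact fun hd i =>
      (Finset.single_le_sum (fun j _ => Nat.zero_le (d j)) (Finset.mem_univ i)).trans_lt hd
  obtain ⟨m, e, hne, hinj, hspan⟩ := exists_distinct_ord_span T a
  choose b hb using hspan
  let P : Fin m → MvPowerSeries σ (Kb p) := fun ν d => if hd : d ∈ T then b d hd ν else 0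
  have hPc : ∀ ν d, coeff d (P ν) = if hd : d ∈ T then b d hd ν else 0 := fun ν d => rfl
  have hPsum : ∀ ν (z : σ → C p), ev (P ν) z =
      ∑ d ∈ T, HahnSeries.C (coeff d (P ν)) * ∏ i, z i ^ d i := by
    intro ν z
    refine HasEvalC.evalC_eq (hasSumC_of_support_subset T fun d hd => ?_)
    rw [hPc, dif_neg hd, map_zero, zero_mul]
  obtain ⟨M, hM, hfix⟩ :=
    exists_period (T.attach.biUnion fun d => Finset.univ.image fun ν => b d.1 d.2 ν)
  have hfixP : ∀ ν l d, coeff d (P ν) ^ p ^ (M * l) = coeff d (P ν) := by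
    intro ν l d
    rw [hPc]
    split_ifs with hd
    · refine pow_mul_eq_self (hfix _ ?_) l
      exact Finset.mem_biUnion.mpr ⟨⟨d, hd⟩, Finset.mem_attach _ _,
        Finset.mem_image.mpr ⟨ν, Finset.mem_univ _, rfl⟩⟩
    · exact zero_pow (pow_ne_zero _ (Fact.out : p.Prime).ne_zero)
  have hpowS : ∀ l, (fun i => y i ^ p ^ (h * l)) ∈ S := by
    intro l
    induction l with
    | zero => simpa using hy
    | succ l ih =>
      have := hfrob _ ih
      simpa [← pow_mul, ← pow_add, Nat.mul_succ] using this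
  -- each component is small
  have hsmall : ∀ ν, ((D : ℚ) * ε : ℚ) ≤ ord (ev (P ν) y) := by
    by_contra hc
    push Not at hc
    obtain ⟨ν₁, hν₁⟩ := hc
    set W := Finset.univ.filter fun ν => ord (ev (P ν) y) < ((D : ℚ) * ε : ℚ) with hW
    have hwν : ∀ ν ∈ W, ∃ w : ℚ, (w : WithTop ℚ) = ord (ev (P ν) y) := fun ν hν =>
      WithTop.ne_top_iff_exists.mp (Finset.mem_filter.mp hν).2.ne_top
    choose! w hw using hwν
    have hene : ∀ ν, ∃ γ : ℚ, (γ : WithTop ℚ) = ord (e ν) := fun ν =>
      WithTop.ne_top_iff_exists.mp (mt ord_eq_top.mp (hne ν))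
    choose γ hγ using hene
    -- the size needed
    set gap : Finset ℚ := insert 0 ((Finset.univ ×ˢ W).image fun x : Fin m × Fin m =>
        |γ x.1| + |γ x.2|)
    set G : ℚ := gap.max' ⟨0, Finset.mem_insert_self _ _⟩
    have hG : ∀ ν, ∀ ν' ∈ W, |γ ν| + |γ ν'| ≤ G := fun ν ν' hν' =>
      Finset.le_max' gap (|γ ν| + |γ ν'|) (Finset.mem_insert_of_mem
        (Finset.mem_image.mpr ⟨(ν, ν'), Finset.mem_product.mpr ⟨Finset.mem_univ _, hν'⟩, rfl⟩))
    set diffs : Finset ℚ := insert 1 (((W ×ˢ W).image fun x => |w x.1 - w x.2|).filter (0 < ·) ∪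
      W.image fun ν => (D : ℚ) * ε - w ν)
    set δ : ℚ := diffs.min' ⟨1, Finset.mem_insert_self _ _⟩
    have hδ0 : 0 < δ := by
      refine (Finset.lt_min'_iff diffs _).mpr fun q hq => ?_
      rcases Finset.mem_insert.mp hq with rfl | hq
      · exact one_pos
      rcases Finset.mem_union.mp hq with hq | hq
      · exact (Finset.mem_filter.mp hq).2
      · obtain ⟨ν, hν, rfl⟩ := Finset.mem_image.mp hq
        have := (Finset.mem_filter.mp hν).2
        rw [← hw ν hν, WithTop.coe_lt_coe] at this
        linarith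
    obtain ⟨l, hl⟩ := exists_nat_gt (G / δ)
    have hl' : G < (l : ℚ) * δ := by rwa [div_lt_iff₀ hδ0] at hl
    set Q' : ℕ := p ^ (h * (M * l))
    have hlQ : (l : ℚ) ≤ (Q' : ℚ) := by
      have h1 : l ≤ h * (M * l) := by
        calc l = 1 * (1 * l) := by simp
          _ ≤ h * (M * l) := Nat.mul_le_mul hh (Nat.mul_le_mul_right l hM)
      exact_mod_cast h1.trans (Nat.lt_pow_self (Fact.out : p.Prime).one_lt).le
    have hQpos : (0 : ℚ) < Q' := by exact_mod_cast pow_pos (Fact.out : p.Prime).pos _
    have hbig : G < (Q' : ℚ) * δ := hl'.trans_le (mul_le_mul_of_nonneg_right hlQ hδ0.le)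
    set z : σ → C p := fun i => y i ^ Q' with hz
    have hzpow : ∀ ν, ev (P ν) z = ev (P ν) y ^ Q' := fun ν =>
      ev_pow_of_fixed hy0 _ fun d => by
        rw [Nat.mul_left_comm]; exact hfixP ν (h * l) d
    have hzS : z ∈ S := hpowS (M * l)
    have hz0 := hpos z hzS
    have hsum := hvan z hzS
    set f : (σ →₀ ℕ) → C p := fun d => a d * ∏ i, z i ^ d i
    have hTsum : ∑ d ∈ T, f d = ∑ ν, e ν * ev (P ν) z := by
      simp only [hPsum, Finset.mul_sum]
      rw [Finset.sum_comm]
      refine Finset.sum_congr rfl fun d hd => ?_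
      simp only [f, hPc, dif_pos hd]
      rw [hb d hd, Finset.sum_mul]
      exact Finset.sum_congr rfl fun ν _ => by ring
    have hrest : HasSumC p (fun d => if d ∈ T then 0 else f d) (0 - ∑ d ∈ T, f d) := by
      have h1 : HasSumC p (fun d => if d ∈ T then f d else 0) (∑ d ∈ T, f d) := by
        have := hasSumC_of_support_subset (a := fun d => if d ∈ T then f d else 0) T
          fun d hd => if_neg hd
        rwa [Finset.sum_congr rfl fun d hd => if_pos hd] at this
      have h2 := hsum.sub h1
      convert h2 using 1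
      funext d
      by_cases hd : d ∈ T <;> simp [hd, f]
    have htail : (((Q' : ℚ) * ((D : ℚ) * ε) : ℚ) : WithTop ℚ) ≤ ord (∑ d ∈ T, f d) := by
      rw [← ord_neg, ← zero_sub]
      refine hrest.le_ord fun d => ?_
      split_ifs with hd
      · simp
      rw [hTmem, not_lt] at hd
      have hεz : ∀ i, (((Q' : ℚ) * ε : ℚ) : WithTop ℚ) ≤ ord (z i) := by
        intro i
        rw [hz, ord_pow, ← nsmul_eq_mul, WithTop.coe_nsmul]
        exact nsmul_le_nsmul_right (hε i) _
      rw [ord_mul]
      refine le_trans ?_ (le_add_of_nonneg_left (ha d))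
      refine le_trans ?_ (le_ord_prod_pow hεz d)
      rw [WithTop.coe_le_coe, nsmul_eq_mul]
      have : (D : ℚ) ≤ ((∑ i, d i : ℕ) : ℚ) := by exact_mod_cast hd
      nlinarith [mul_nonneg hQpos.le hε0.le]
    rw [hTsum] at htail
    -- a unique minimal term
    have hν₁W : ν₁ ∈ W := Finset.mem_filter.mpr ⟨Finset.mem_univ _, hν₁⟩
    set val : Fin m → ℚ := fun ν => γ ν + (Q' : ℚ) * w ν
    obtain ⟨ν₀, hν₀, hmin⟩ := Finset.exists_min_image W val ⟨ν₁, hν₁W⟩
    have hterm : ∀ ν ∈ W, ord (e ν * ev (P ν) z) = ((val ν : ℚ) : WithTop ℚ) := by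
      intro ν hν
      rw [ord_mul, hzpow, ord_pow, ← hγ, ← hw ν hν, ← WithTop.coe_nsmul, ← WithTop.coe_add,
        nsmul_eq_mul]
    have hgapD : ∀ ν ∈ W, δ ≤ (D : ℚ) * ε - w ν := fun ν hν =>
      Finset.min'_le diffs ((D : ℚ) * ε - w ν) (Finset.mem_insert_of_mem (Finset.mem_union_right _
        (Finset.mem_image_of_mem _ hν)))
    have hgapW : ∀ ν ∈ W, ∀ ν' ∈ W, w ν < w ν' → δ ≤ w ν' - w ν := by
      intro ν hν ν' hν' hlt
      rw [← abs_of_pos (sub_pos.mpr hlt)]
      exact Finset.min'_le diffs |w ν' - w ν| (Finset.mem_insert_of_mem (Finset.mem_union_left _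
        (Finset.mem_filter.mpr ⟨Finset.mem_image.mpr
          ⟨(ν', ν), Finset.mem_product.mpr ⟨hν', hν⟩, rfl⟩,
          abs_pos.mpr (sub_ne_zero.mpr hlt.ne')⟩)))
    have hothers : ∀ ν ≠ ν₀, ((val ν₀ : ℚ) : WithTop ℚ) < ord (e ν * ev (P ν) z) := by
      intro ν hν
      by_cases hνW : ν ∈ W
      · rw [hterm ν hνW, WithTop.coe_lt_coe]
        refine lt_of_le_of_ne (hmin ν hνW) fun heq => ?_
        have hγne : γ ν₀ ≠ γ ν := fun h =>
          hν (hinj (show ord (e ν) = ord (e ν₀) by rw [← hγ, ← hγ, h]))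
        have hG' := hG ν₀ ν hνW
        rcases lt_trichotomy (w ν) (w ν₀) with hlt | heqw | hlt
        · have := hgapW ν hνW ν₀ hν₀ hlt
          simp only [val] at heq
          nlinarith [le_abs_self (γ ν), neg_abs_le (γ ν₀)]
        · simp only [val, heqw] at heq
          exact hγne (by linarith)
        · have := hgapW ν₀ hν₀ ν hνW hlt
          simp only [val] at heq
          nlinarith [le_abs_self (γ ν₀), neg_abs_le (γ ν)]
      · have h1 : (((D : ℚ) * ε : ℚ) : WithTop ℚ) ≤ ord (ev (P ν) y) := by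
          by_contra hc
          exact hνW (Finset.mem_filter.mpr ⟨Finset.mem_univ _, not_le.mp hc⟩)
        rw [ord_mul, hzpow, ord_pow, ← hγ]
        refine lt_of_lt_of_le ?_ (add_le_add le_rfl (nsmul_le_nsmul_right h1 _))
        rw [← WithTop.coe_nsmul, ← WithTop.coe_add, WithTop.coe_lt_coe, nsmul_eq_mul]
        have hG' := hG ν ν₀ hν₀
        have := hgapD ν₀ hν₀
        simp only [val]
        nlinarith [le_abs_self (γ ν₀), neg_abs_le (γ ν)]
    have hrest' : ((val ν₀ : ℚ) : WithTop ℚ) <
        ord (∑ ν ∈ Finset.univ.erase ν₀, e ν * ev (P ν) z) :=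
      Finset.sum_induction _ (fun x => ((val ν₀ : ℚ) : WithTop ℚ) < ord x)
        (fun _ _ => lt_ord_add) (by rw [ord_zero]; exact WithTop.coe_lt_top _)
        fun ν hν => hothers ν (Finset.ne_of_mem_erase hν)
    have hlast : ((val ν₀ : ℚ) : WithTop ℚ) < ord (∑ ν, e ν * ev (P ν) z) := by
      refine lt_of_lt_of_le ?_ htail
      rw [WithTop.coe_lt_coe]
      have hG' := hG ν₀ ν₀ hν₀
      have := hgapD ν₀ hν₀
      simp only [val]
      nlinarith [le_abs_self (γ ν₀), abs_nonneg (γ ν₀)]
    have h3 := lt_ord_sub hlast hrest'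
    rw [← Finset.add_sum_erase _ _ (Finset.mem_univ ν₀), add_sub_cancel_right,
      hterm ν₀ hν₀] at h3
    exact lt_irrefl _ h3
  -- assemble
  have hQ : HasSumC p (fun d => HahnSeries.C (lam (a d)) * ∏ i, y i ^ d i) (ev Q y) :=
    hasEvalC (intCoeff_residue Q) hy0
  have hsplit : (∑ d ∈ T, HahnSeries.C (lam (a d)) * ∏ i, y i ^ d i) =
      ∑ ν, HahnSeries.C (lam (e ν)) * ev (P ν) y := by
    simp only [hPsum, Finset.mul_sum]
    rw [Finset.sum_comm]
    refine Finset.sum_congr rfl fun d hd => ?_
    simp only [hPc, dif_pos hd]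
    rw [hb d hd, map_sum, map_sum, Finset.sum_mul]
    refine Finset.sum_congr rfl fun ν _ => ?_
    rw [hlam, map_mul]
    ring
  have hBD : (B : WithTop ℚ) < (((D : ℚ) * ε : ℚ) : WithTop ℚ) := WithTop.coe_lt_coe.mpr hDB
  have h1 : (B : WithTop ℚ) < ord (∑ d ∈ T, HahnSeries.C (lam (a d)) * ∏ i, y i ^ d i) := by
    rw [hsplit]
    refine hBD.trans_le (le_ord_sum _ fun ν _ => ?_)
    rw [ord_mul]
    exact (hsmall ν).trans (le_add_of_nonneg_left (ord_C_nonneg _))
  have h2 : (B : WithTop ℚ) < ord (ev Q y - ∑ d ∈ T, HahnSeries.C (lam (a d)) * ∏ i, y i ^ d i) := by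
    have h4 : HasSumC p (fun d => if d ∈ T then HahnSeries.C (lam (a d)) * ∏ i, y i ^ d i else 0)
        (∑ d ∈ T, HahnSeries.C (lam (a d)) * ∏ i, y i ^ d i) := by
      have := hasSumC_of_support_subset
        (a := fun d => if d ∈ T then HahnSeries.C (lam (a d)) * ∏ i, y i ^ d i else 0) T
        fun d hd => if_neg hd
      rwa [Finset.sum_congr rfl fun d hd => if_pos hd] at this
    refine (hQ.sub h4).lt_ord fun d => ?_
    split_ifs with hd
    · rw [sub_self, ord_zero]; exact WithTop.coe_lt_top _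
    rw [hTmem, not_lt] at hd
    rw [sub_zero, ord_mul]
    refine hBD.trans_le (le_trans ?_ (le_add_of_nonneg_left (ord_C_nonneg _)))
    refine le_trans ?_ (le_ord_prod_pow hε d)
    rw [WithTop.coe_le_coe, nsmul_eq_mul]
    have : (D : ℚ) ≤ ((∑ i, d i : ℕ) : ℚ) := by exact_mod_cast hd
    nlinarith
  have := lt_ord_add h2 h1
  rwa [sub_add_cancel] at this

end

end Vale.Agent.P217.Rigid
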