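import Vale.Agent.P217.Defs

/-!
P217, module M9: formal lemmas on power series over a field of characteristic p.
-/

namespace Vale.Agent.P217.Rigid

noncomputable section

open MvPowerSeries Finsupp

variable {σ : Type*} [Finite σ] {k : Type*} [Field k]

/-- Coefficients of total degree below `n` agree. -/
def Agree (n : ℕ) (f g : MvPowerSeries σ k) : Prop :=
  ∀ d : σ →₀ ℕ, degree d < n → coeff d f = coeff d g

omit [Finite σ] in
theorem agree_iff (n : ℕ) (f g : MvPowerSeries σ k) :
    Agree n f g ↔ (n : ℕ∞) ≤ (f - g).order := by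
  constructor
  · intro h
    refine MvPowerSeries.nat_le_order fun d hd => ?_
    rw [map_sub, h d hd, sub_self]
  · intro h d hd
    have h2 : ((degree d : ℕ) : ℕ∞) < (f - g).order :=
      lt_of_lt_of_le (by exact_mod_cast hd) h
    have := MvPowerSeries.coeff_of_lt_order h2
    rw [map_sub, sub_eq_zero] at this
    exact this

/-- Dependence of a substitution on the last entry: only the linear term sees the top degree. -/
theorem coeff_subst_sub {τ : Type*} [Finite τ] [DecidableEq τ] (G : MvPowerSeries τ k) (j : τ)
    (a a' : τ → MvPowerSeries σ k) (ha : ∀ i, constantCoeff (a i) = 0)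
    (ha' : constantCoeff (a' j) = 0) (heq : ∀ i, i ≠ j → a' i = a i) {n : ℕ}
    (h : Agree n (a j) (a' j)) {d : σ →₀ ℕ} (hd : degree d ≤ n) :
    coeff d (subst a G) - coeff d (subst a' G) =
      coeff (single j 1) G * (coeff d (a j) - coeff d (a' j)) := by
  classical
  cases nonempty_fintype τ
  have ha'' : ∀ i, constantCoeff (a' i) = 0 := by
    intro i
    by_cases hi : i = j
    · rw [hi]; exact ha'
    · rw [heq i hi]; exact ha i
  have hs := hasSubst_of_constantCoeff_zero ha
  have hs' := hasSubst_of_constantCoeff_zero ha''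
  rw [coeff_subst hs, coeff_subst hs', ← finsum_sub_distrib (coeff_subst_finite hs G d)
    (coeff_subst_finite hs' G d), finsum_eq_single _ (single j 1)]
  · rw [Finsupp.prod_single_index (h := fun s e => a s ^ e) (pow_zero _),
      Finsupp.prod_single_index (h := fun s e => a' s ^ e) (pow_zero _), pow_one, pow_one,
      smul_eq_mul, smul_eq_mul, ← mul_sub]
  · intro e he
    rw [smul_eq_mul, smul_eq_mul, ← mul_sub, ← map_sub]
    apply mul_eq_zero_of_right
    rw [Finsupp.prod_fintype _ _ (fun i => pow_zero _),
      Finsupp.prod_fintype _ _ (fun i => pow_zero _)]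
    rw [← Finset.mul_prod_erase _ _ (Finset.mem_univ j),
      ← Finset.mul_prod_erase _ _ (Finset.mem_univ j)]
    have herase : ∏ i ∈ Finset.univ.erase j, a' i ^ e i = ∏ i ∈ Finset.univ.erase j, a i ^ e i :=
      Finset.prod_congr rfl fun i hi => by rw [heq i (Finset.ne_of_mem_erase hi)]
    rw [herase, ← sub_mul]
    obtain hej | hej := Nat.eq_zero_or_pos (e j)
    · simp [hej]
    · have hkey : ∀ i, (1 : ℕ∞) ≤ (a i).order := fun i =>
        one_le_order_iff_constCoeff_eq_zero.mpr (ha i)
      rw [← geom_sum₂_mul (a j) (a' j) (e j)]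
      refine MvPowerSeries.coeff_of_lt_order ?_
      have h1 : (n : ℕ∞) ≤ (a j - a' j).order := (agree_iff _ _ _).mp h
      by_cases hej1 : e j = 1
      · -- another exponent is positive
        obtain ⟨i, hij, hi⟩ : ∃ i, i ≠ j ∧ e i ≠ 0 := by
          by_contra hc
          push Not at hc
          apply he
          ext i
          by_cases hi : i = j
          · subst hi; simp [hej1]
          · simp [hc i hi, Finsupp.single_eq_of_ne hi]
        have h2 : (1 : ℕ∞) ≤ (∏ l ∈ Finset.univ.erase j, a l ^ e l).order := by
          rw [one_le_order_iff_constCoeff_eq_zero, map_prod]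
          refine Finset.prod_eq_zero (Finset.mem_erase.mpr ⟨hij, Finset.mem_univ i⟩) ?_
          rw [map_pow, ha i, zero_pow hi]
        refine lt_of_lt_of_le ?_ le_order_mul
        refine lt_of_lt_of_le ?_ (add_le_add le_order_mul h2)
        refine lt_of_lt_of_le ?_ (add_le_add (add_le_add (zero_le) h1) le_rfl)
        rw [zero_add]
        exact_mod_cast Nat.lt_succ_of_le hd
      · have h3 : (1 : ℕ∞) ≤
            (∑ l ∈ Finset.range (e j), a j ^ l * a' j ^ (e j - 1 - l)).order := by
          rw [one_le_order_iff_constCoeff_eq_zero, map_sum]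
          refine Finset.sum_eq_zero fun l hl => ?_
          rw [map_mul, map_pow, map_pow, ha j, ha']
          rcases Nat.eq_zero_or_pos l with hl0 | hl0
          · rw [zero_pow (by omega : e j - 1 - l ≠ 0), mul_zero]
          · rw [zero_pow (by omega : l ≠ 0), zero_mul]
        refine lt_of_lt_of_le ?_ le_order_mul
        refine lt_of_lt_of_le ?_ (add_le_add le_order_mul (zero_le))
        refine lt_of_lt_of_le ?_ (add_le_add (add_le_add h3 h1) le_rfl)
        rw [add_zero]
        exact_mod_cast (by omega : degree d < 1 + n)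

/-- A series with a nonzero linear coefficient at `j` has a formal root in that variable. -/
theorem exists_implicit {τ : Type*} [Finite τ] [DecidableEq τ] (G : MvPowerSeries τ k) (j : τ)
    (hG : constantCoeff G = 0) (hc : coeff (single j 1) G ≠ 0) (b : τ → MvPowerSeries σ k)
    (hb : ∀ i, constantCoeff (b i) = 0) :
    ∃ φ : MvPowerSeries σ k, constantCoeff φ = 0 ∧ subst (Function.update b j φ) G = 0 := by
  set c := coeff (single j 1) G
  have hb' : ∀ φ : MvPowerSeries σ k, constantCoeff φ = 0 →
      ∀ i, constantCoeff (Function.update b j φ i) = 0 := by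
    intro φ hφ i
    by_cases hi : i = j
    · subst hi; simp [hφ]
    · simp [Function.update_of_ne hi, hb i]
  let Ψ : MvPowerSeries σ k → MvPowerSeries σ k := fun φ =>
    φ - C c⁻¹ * subst (Function.update b j φ) G
  have hΨ0 : ∀ φ, constantCoeff φ = 0 → constantCoeff (Ψ φ) = 0 := by
    intro φ hφ
    simp only [Ψ, map_sub, map_mul, hφ,
      constantCoeff_subst_eq_zero (hasSubst_of_constantCoeff_zero (hb' φ hφ)) (hb' φ hφ) hG,
      mul_zero, sub_zero]
  have hstep : ∀ n φ φ', constantCoeff φ = 0 → constantCoeff φ' = 0 →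
      Agree n φ φ' → Agree (n + 1) (Ψ φ) (Ψ φ') := by
    intro n φ φ' hφ hφ' hA d hd
    have := coeff_subst_sub G j (Function.update b j φ) (Function.update b j φ') (hb' φ hφ)
      (by simp [hφ']) (fun i hi => by simp [Function.update_of_ne hi]) (n := n)
      (by simpa using hA) (Nat.lt_succ_iff.mp hd)
    simp only [Function.update_self] at this
    have h2 : c * c⁻¹ = 1 := mul_inv_cancel₀ hc
    simp only [Ψ, map_sub, coeff_C_mul]
    linear_combination (-c⁻¹) * this + (-(coeff d φ - coeff d φ')) * h2
  set s : ℕ → MvPowerSeries σ k := fun m => Ψ^[m] 0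
  have hs0 : ∀ m, constantCoeff (s m) = 0 := by
    intro m
    induction m with
    | zero => simp [s]
    | succ m ih => simpa [s, Function.iterate_succ_apply'] using hΨ0 _ ih
  have hcauchy : ∀ m, Agree m (s m) (s (m + 1)) := by
    intro m
    induction m with
    | zero => intro d hd; exact absurd hd (Nat.not_lt_zero _)
    | succ m ih =>
      have := hstep m _ _ (hs0 m) (hs0 (m + 1)) ih
      simpa [s, Function.iterate_succ_apply'] using this
  have hstable : ∀ m l, Agree m (s m) (s (m + l)) := by
    intro m l
    induction l with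
    | zero => intro d _; rfl
    | succ l ih =>
      intro d hd
      rw [ih d hd]
      exact hcauchy (m + l) d (lt_of_lt_of_le hd (Nat.le_add_right m l))
  let φ : MvPowerSeries σ k := fun d => coeff d (s (degree d + 1))
  have hφ : ∀ m, Agree m (s m) φ := by
    intro m d hd
    show coeff d (s m) = coeff d (s (degree d + 1))
    obtain ⟨l, rfl⟩ := Nat.exists_eq_add_of_le (Nat.succ_le_of_lt hd)
    exact (hstable (degree d + 1) l d (Nat.lt_succ_self _)).symm
  have hφ0 : constantCoeff φ = 0 := by
    rw [← coeff_zero_eq_constantCoeff, ← hφ 1 0 (by simp),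
      coeff_zero_eq_constantCoeff, hs0]
  refine ⟨φ, hφ0, ?_⟩
  ext d
  have h1 := hstep (degree d) _ _ (hs0 _) hφ0 (hφ (degree d)) d (Nat.lt_succ_self _)
  have h2 : Ψ (s (degree d)) = s (degree d + 1) := by simp [s, Function.iterate_succ_apply']
  rw [h2, hφ (degree d + 1) d (Nat.lt_succ_self _)] at h1
  simp only [Ψ, map_sub, coeff_C_mul] at h1
  have h3 : c⁻¹ * coeff d (subst (Function.update b j φ) G) = 0 := by linear_combination h1
  rw [map_zero]
  exact (mul_eq_zero.mp h3).resolve_left (inv_ne_zero hc)

end

end Vale.Agent.P217.Rigid
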