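import Vale.Agent.P217.Iface
import Vale.Agent.P217.Rigid.Formal

/-!
P217, module M9: the Honda law over the residue field is commutative and has an inverse
homomorphism.
-/

namespace Vale.Agent.P217.Rigid

noncomputable section

open MvPowerSeries Finsupp

theorem isComm_of_log {K : Type*} [Field K] (L : FormalGroup K) (f : PowerSeries K)
    (hf0 : PowerSeries.constantCoeff f = 0) (hf1 : PowerSeries.coeff 1 f = 1)
    (hlog : PowerSeries.subst (L : MvPowerSeries (Fin 2) K) f =
      PowerSeries.subst (X (0 : Fin 2) : MvPowerSeries (Fin 2) K) f +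
        PowerSeries.subst (X (1 : Fin 2) : MvPowerSeries (Fin 2) K) f) : L.IsComm := by
  set sw : Fin 2 → MvPowerSeries (Fin 2) K := ![X 1, X 0]
  have hsw : HasSubst sw := HasSubst.X_X
  have hL : PowerSeries.HasSubst (L : MvPowerSeries (Fin 2) K) :=
    PowerSeries.HasSubst.of_constantCoeff_zero L.zero_constantCoeff
  have hL' : constantCoeff (subst sw (L : MvPowerSeries (Fin 2) K)) = 0 :=
    constantCoeff_subst_eq_zero hsw (fun i => by fin_cases i <;> simp [sw]) L.zero_constantCoeff
  have h : PowerSeries.subst (subst sw (L : MvPowerSeries (Fin 2) K)) f =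
      PowerSeries.subst (L : MvPowerSeries (Fin 2) K) f := by
    have h1 : ∀ a : MvPowerSeries (Fin 2) K, PowerSeries.HasSubst a →
        PowerSeries.subst (subst sw a) f = subst sw (PowerSeries.subst a f) := by
      intro a ha
      exact (MvPowerSeries.subst_comp_subst_apply ha.const hsw f).symm
    rw [h1 _ hL, hlog, subst_add hsw, ← h1 _ (PowerSeries.HasSubst.X 0),
      ← h1 _ (PowerSeries.HasSubst.X 1), subst_X hsw, subst_X hsw, add_comm]
    simp [sw]
  have hu : IsUnit (PowerSeries.coeff 1 f) := by rw [hf1]; exact isUnit_one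
  set g := PowerSeries.substInvOfIsUnit f hu
  have hfs : PowerSeries.HasSubst f := PowerSeries.HasSubst.of_constantCoeff_zero' hf0
  have hinv : ∀ a : MvPowerSeries (Fin 2) K, PowerSeries.HasSubst a →
      PowerSeries.subst (PowerSeries.subst a f) g = a := by
    intro a ha
    rw [← PowerSeries.subst_comp_subst_apply hfs ha,
      PowerSeries.subst_substInvOfIsUnit_left f hf0 hu, PowerSeries.subst_X ha]
  refine ⟨?_⟩
  have := congrArg (fun z => PowerSeries.subst z g) h
  simp only [hinv _ (PowerSeries.HasSubst.of_constantCoeff_zero hL'), hinv _ hL] at this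
  exact this.symm

theorem isComm_map {R S : Type*} [CommRing R] [CommRing S] (L : FormalGroup R) [L.IsComm]
    (f : R →+* S) : (L.map f).IsComm := by
  refine ⟨?_⟩
  have h : (L : MvPowerSeries (Fin 2) R) = subst ![X 1, X 0] (L : MvPowerSeries (Fin 2) R) :=
    FormalGroup.IsComm.comm
  have h' := congrArg (MvPowerSeries.map f) h
  rw [map_subst HasSubst.X_X] at h'
  refine h'.trans ?_
  show subst _ _ = subst _ (MvPowerSeries.map f (L : MvPowerSeries (Fin 2) R))
  congr 1
  funext i
  fin_cases i <;> simp

theorem isComm_of_map {R S : Type*} [CommRing R] [CommRing S] (L : FormalGroup R) (f : R →+* S)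
    (hf : Function.Injective f) (hc : (L.map f).IsComm) : L.IsComm := by
  refine ⟨?_⟩
  have hinj : Function.Injective (MvPowerSeries.map (σ := Fin 2) f) := by
    intro a b hab
    ext d
    exact hf (by simpa [coeff_map] using congrArg (coeff d) hab)
  apply hinj
  rw [map_subst HasSubst.X_X]
  refine hc.comm.trans ?_
  show subst _ (MvPowerSeries.map f (L : MvPowerSeries (Fin 2) R)) = _
  congr 1
  funext i
  fin_cases i <;> simp

theorem isComm_hondaKb (p : ℕ) [Fact p.Prime] {h : ℕ} (hh : 1 ≤ h) {H : FormalGroup (Kb p)}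
    (hH : IsHondaKb p h H) : H.IsComm := by
  obtain ⟨_, L, rfl, f, hf, hlog⟩ := hH
  have hp : 1 < p := (Fact.out : p.Prime).one_lt
  have hf0 : PowerSeries.constantCoeff f = 0 := by
    rw [← PowerSeries.coeff_zero_eq_constantCoeff_apply, hf 0]
    simp [(Fact.out : p.Prime).ne_zero]
  have hf1 : PowerSeries.coeff 1 f = 1 := by
    have h1 : p ^ h ≠ 1 := (Nat.one_lt_pow (by omega) hp).ne'
    rw [hf 1, Finset.sum_range_succ, Finset.sum_range_one]
    simp [hp.ne', Nat.one_le_iff_ne_zero.mp hh]
  have hLQ := isComm_of_log (L.map PadicInt.Coe.ringHom) f hf0 hf1 hlog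
  have := isComm_of_map L PadicInt.Coe.ringHom Subtype.coe_injective hLQ
  exact isComm_map L _

theorem isHom_X {R : Type*} [CommRing R] (H : FormalGroup R) : IsHom H H PowerSeries.X := by
  refine ⟨PowerSeries.constantCoeff_X, ?_⟩
  rw [PowerSeries.subst_X (PowerSeries.HasSubst.of_constantCoeff_zero H.zero_constantCoeff),
    PowerSeries.subst_X (PowerSeries.HasSubst.X 0), PowerSeries.subst_X (PowerSeries.HasSubst.X 1)]
  have h : (![X 0, X 1] : Fin 2 → MvPowerSeries (Fin 2) R) = X := by
    funext i; fin_cases i <;> rfl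
  rw [h, subst_self, id_eq]

theorem isHom_zero {R : Type*} [CommRing R] (H : FormalGroup R) :
    IsHom H H (0 : PowerSeries R) := by
  refine ⟨map_zero _, ?_⟩
  have h0 : ∀ a : MvPowerSeries (Fin 2) R, PowerSeries.HasSubst a →
      PowerSeries.subst a (0 : PowerSeries R) = 0 := by
    intro a ha; rw [← PowerSeries.coe_substAlgHom ha, map_zero]
  rw [h0 _ (PowerSeries.HasSubst.of_constantCoeff_zero H.zero_constantCoeff),
    h0 _ (PowerSeries.HasSubst.X 0), h0 _ (PowerSeries.HasSubst.X 1)]
  have h : (![0, 0] : Fin 2 → MvPowerSeries (Fin 2) R) = 0 := by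
    funext i; fin_cases i <;> rfl
  rw [h, subst_zero_of_constantCoeff_zero H.zero_constantCoeff]

/-- The inverse of a commutative law over a field is a homomorphism. -/
theorem exists_neg_isHom {k : Type*} [Field k] (H : FormalGroup k) [H.IsComm] :
    ∃ ι : PowerSeries k, IsHom H H ι ∧
      (H : MvPowerSeries (Fin 2) k).subst ![PowerSeries.X, ι] = (0 : PowerSeries k) := by
  obtain ⟨ι, hι0, hι⟩ := exists_implicit (σ := Unit) (H : MvPowerSeries (Fin 2) k) 1
    H.zero_constantCoeff (by rw [H.lin_coeff_Y]; exact one_ne_zero) ![PowerSeries.X, 0]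
    (fun i => by fin_cases i <;> simp [PowerSeries.X])
  have hupd : Function.update (![PowerSeries.X, 0] : Fin 2 → PowerSeries k) 1 ι =
      ![PowerSeries.X, ι] := by
    funext i; fin_cases i <;> simp
  rw [hupd] at hι
  have hsub : ∀ a : MvPowerSeries (Fin 2) k, PowerSeries.HasSubst a →
      (H : MvPowerSeries (Fin 2) k).subst ![a, PowerSeries.subst a ι] = 0 := by
    intro a ha
    have hb : HasSubst (![PowerSeries.X, ι] : Fin 2 → PowerSeries k) :=
      hasSubst_of_constantCoeff_zero (fun i => by
        fin_cases i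
        · exact PowerSeries.constantCoeff_X
        · exact hι0)
    have h2 := congrArg (MvPowerSeries.subst (fun _ : Unit => a)) hι
    rw [MvPowerSeries.subst_comp_subst_apply hb ha.const, ← coe_substAlgHom ha.const, map_zero,
      coe_substAlgHom ha.const] at h2
    refine Eq.trans ?_ h2
    congr 1
    funext i
    fin_cases i
    · exact (PowerSeries.subst_X ha).symm
    · rfl
  refine ⟨ι, ⟨hι0, ?_⟩, hι⟩
  have hpos : ∀ a : MvPowerSeries (Fin 2) k, PowerSeries.HasSubst a →
      PowerSeries.HasSubst (PowerSeries.subst a ι) := fun a ha =>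
    IsNilpotent_subst ha.const (by
      show IsNilpotent (constantCoeff (ι : MvPowerSeries Unit k))
      rw [hι0]; exact IsNilpotent.zero)
  let x : H.Point (Fin 2) := ⟨X 0, PowerSeries.HasSubst.X 0⟩
  let y : H.Point (Fin 2) := ⟨X 1, PowerSeries.HasSubst.X 1⟩
  let n : H.Point (Fin 2) → H.Point (Fin 2) := fun a =>
    ⟨PowerSeries.subst a.val ι, hpos _ a.prop⟩
  have hn : ∀ a, a + n a = 0 := fun a => Subtype.ext (hsub _ a.prop)
  have hxy : (x + y).val = (H : MvPowerSeries (Fin 2) k) := by
    show subst ![X 0, X 1] (H : MvPowerSeries (Fin 2) k) = _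
    have h : (![X 0, X 1] : Fin 2 → MvPowerSeries (Fin 2) k) = X := by
      funext i; fin_cases i <;> rfl
    rw [h, subst_self, id_eq]
  have key : n (x + y) = n x + n y :=
    calc n (x + y) = n (x + y) + ((x + n x) + (y + n y)) := by rw [hn, hn, add_zero, add_zero]
      _ = ((x + y) + n (x + y)) + (n x + n y) := by abel
      _ = n x + n y := by rw [hn, zero_add]
  have := congrArg Subtype.val key
  simp only [n, hxy] at this
  exact this

end

end Vale.Agent.P217.Rigid
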