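import Vale.Agent.P217.Defs

/-!
P217, module M9: invariant derivatives, and ideals stable under derivations in characteristic p.
-/

namespace Vale.Agent.P217.Rigid

noncomputable section

open MvPowerSeries Finsupp

variable {σ : Type*} [Fintype σ] [DecidableEq σ] {k : Type*} [Field k]

omit [Fintype σ] in
theorem degree_single_le {e : σ →₀ ℕ} {i : σ} (h : e i ≠ 0) :
    degree (e - single i 1) + 1 = degree e := by
  have h1 : single i 1 ≤ e := by
    intro j
    by_cases hj : j = i
    · subst hj; simpa using Nat.one_le_iff_ne_zero.mpr h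
    · simp [Finsupp.single_eq_of_ne hj]
  conv_rhs => rw [← tsub_add_cancel_of_le h1]
  rw [map_add, degree_single]

/-- An ideal stable under the partial derivatives and under p-th roots, inside the augmentation
ideal, is zero. -/
theorem eq_bot_of_stable (p : ℕ) [Fact p.Prime] [CharP k p] [PerfectRing k p]
    (K : Ideal (MvPowerSeries σ k))
    (h0 : ∀ G ∈ K, constantCoeff G = 0)
    (hD : ∀ G ∈ K, ∀ i, pderiv k i G ∈ K)
    (hroot : ∀ G : MvPowerSeries σ k, G ^ p ∈ K → G ∈ K) : K = ⊥ := by
  classical
  have : ExpChar k p := ExpChar.prime Fact.out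
  have hp : p ≠ 0 := (Fact.out : p.Prime).ne_zero
  by_contra hK
  obtain ⟨G₀, hG₀, hne⟩ := Submodule.exists_mem_ne_zero_of_ne_bot hK
  have hex : ∃ m, ∃ G ∈ K, ∃ d : σ →₀ ℕ, degree d = m ∧ coeff d G ≠ 0 := by
    obtain ⟨d, hd⟩ : ∃ d, coeff d G₀ ≠ 0 := by
      by_contra hc
      push Not at hc
      exact hne (MvPowerSeries.ext fun d => by simpa using hc d)
    exact ⟨_, G₀, hG₀, d, rfl, hd⟩
  obtain ⟨G, hG, d, hdm, hd⟩ := Nat.find_spec hex
  have hmin : ∀ U ∈ K, ∀ e : σ →₀ ℕ, degree e < degree d → coeff e U = 0 := by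
    intro U hU e he
    by_contra hc
    exact Nat.find_min hex (hdm ▸ he) ⟨U, hU, e, rfl, hc⟩
  have hd0 : d ≠ 0 := by
    rintro rfl
    exact hd (by rw [coeff_zero_eq_constantCoeff, h0 G hG])
  have hdiv : ∀ i, p ∣ d i := by
    intro i
    by_contra hi
    have hdi : d i ≠ 0 := fun h => hi (h ▸ dvd_zero p)
    have h1 : single i 1 ≤ d := by
      intro j
      by_cases hj : j = i
      · subst hj; simpa using Nat.one_le_iff_ne_zero.mpr hdi
      · simp [Finsupp.single_eq_of_ne hj]
    have h2 := hmin _ (hD G hG i) (d - single i 1) (by have := degree_single_le hdi; omega)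
    rw [coeff_pderiv, tsub_add_cancel_of_le h1] at h2
    rcases mul_eq_zero.mp h2 with h3 | h3
    · exact hd h3
    · apply hi
      have h4 : (((d - single i 1 : σ →₀ ℕ) i : ℕ) : k) + 1 = (d i : k) := by
        rw [Finsupp.coe_tsub, Pi.sub_apply, single_eq_same]
        rw [← Nat.cast_one (R := k), ← Nat.cast_add, Nat.sub_add_cancel (Nat.one_le_iff_ne_zero.mpr hdi)]
      rw [h4] at h3
      exact (CharP.cast_eq_zero_iff k p _).mp h3
  -- Euler operators
  have hE : ∀ (i : σ) (U : MvPowerSeries σ k) (e : σ →₀ ℕ),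
      coeff e (X i * pderiv k i U) = (e i : k) * coeff e U := by
    intro i U e
    rw [X, coeff_monomial_mul]
    by_cases hei : e i = 0
    · rw [if_neg]
      · simp [hei]
      · intro hle
        have := hle i
        simp [hei] at this
    · have h1 : single i 1 ≤ e := by
        intro j
        by_cases hj : j = i
        · subst hj; simpa using Nat.one_le_iff_ne_zero.mpr hei
        · simp [Finsupp.single_eq_of_ne hj]
      rw [if_pos h1, coeff_pderiv, tsub_add_cancel_of_le h1, one_mul, mul_comm]
      congr 1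
      rw [Finsupp.coe_tsub, Pi.sub_apply, single_eq_same]
      rw [← Nat.cast_one (R := k), ← Nat.cast_add, Nat.sub_add_cancel (Nat.one_le_iff_ne_zero.mpr hei)]
  have hfer : ∀ m : ℕ, (m : k) ^ (p - 1) = if p ∣ m then 0 else 1 := by
    intro m
    split_ifs with hm
    · rw [(CharP.cast_eq_zero_iff k p m).mpr hm,
        zero_pow (Nat.sub_ne_zero_of_lt (Fact.out : p.Prime).one_lt)]
    · have hmk : (m : k) ≠ 0 := fun h => hm ((CharP.cast_eq_zero_iff k p m).mp h)
      have h1 : (m : k) ^ p = (m : k) := map_natCast (frobenius k p) m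
      have h2 : (m : k) ^ (p - 1) * m = 1 * (m : k) := by
        rw [← pow_succ, Nat.sub_add_cancel (Fact.out : p.Prime).one_le, one_mul, h1]
      exact mul_right_cancel₀ hmk h2
  have hproj : ∀ s : Finset σ, ∃ U ∈ K, ∀ e : σ →₀ ℕ,
      coeff e U = if ∀ i ∈ s, p ∣ e i then coeff e G else 0 := by
    intro s
    induction s using Finset.induction_on with
    | empty => exact ⟨G, hG, fun e => by simp⟩
    | @insert i s hi ih =>
      obtain ⟨U, hU, hUc⟩ := ih
      have hiter : ∀ l : ℕ, ((fun W => X i * pderiv k i W)^[l] U) ∈ K ∧ ∀ e : σ →₀ ℕ,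
          coeff e ((fun W => X i * pderiv k i W)^[l] U) = (e i : k) ^ l * coeff e U := by
        intro l
        induction l with
        | zero => exact ⟨hU, fun e => by simp⟩
        | succ l ih =>
          rw [Function.iterate_succ_apply']
          refine ⟨K.mul_mem_left _ (hD _ ih.1 i), fun e => ?_⟩
          rw [hE, ih.2]; ring
      refine ⟨U - (fun W => X i * pderiv k i W)^[p - 1] U,
        K.sub_mem hU (hiter _).1, fun e => ?_⟩
      rw [map_sub, (hiter _).2, hfer, hUc]
      by_cases h1 : p ∣ e i <;> simp [h1]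
  obtain ⟨U, hU, hUc⟩ := hproj Finset.univ
  let W : MvPowerSeries σ k := fun e => (frobeniusEquiv k p).symm (coeff (p • e) G)
  have hW : W ^ p = U := by
    rw [← map_frobenius_expand p hp]
    ext e
    rw [coeff_map, hUc]
    split_ifs with he
    · obtain ⟨e', rfl⟩ : ∃ e', p • e' = e := by
        refine ⟨e.mapRange (fun a => a / p) (Nat.zero_div p), ?_⟩
        ext a
        simp [Nat.mul_div_cancel' (he a (Finset.mem_univ a))]
      rw [coeff_expand_smul]
      exact frobenius_apply_frobeniusEquiv_symm k p _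
    · push Not at he
      obtain ⟨i, -, hi⟩ := he
      rw [coeff_expand_of_not_dvd p hp _ hi, map_zero]
  have hWK : W ∈ K := hroot W (hW ▸ hU)
  obtain ⟨d', rfl⟩ : ∃ d', p • d' = d := by
    refine ⟨d.mapRange (fun a => a / p) (Nat.zero_div p), ?_⟩
    ext a
    simp [Nat.mul_div_cancel' (hdiv a)]
  have hd' : degree d' < degree (p • d') := by
    rw [map_nsmul, smul_eq_mul]
    have h2 : degree d' ≠ 0 := by
      rw [Ne, Finsupp.degree_eq_zero_iff]
      rintro rfl; simp at hd0
    have := (Fact.out : p.Prime).two_le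
    nlinarith [Nat.pos_of_ne_zero h2]
  have h1 := hmin W hWK d' hd'
  apply hd
  have h2 : (frobeniusEquiv k p).symm (coeff (p • d') G) = 0 := h1
  simpa using congrArg (frobeniusEquiv k p) h2

omit [DecidableEq σ] in
/-- An additive map that lowers the order by at most one and kills polynomials is zero. -/
theorem eq_zero_of_polynomial (Φ : MvPowerSeries σ k →+ MvPowerSeries σ k)
    (hord : ∀ (U : MvPowerSeries σ k) (n : ℕ), (∀ d, degree d < n + 1 → coeff d U = 0) →
      ∀ d, degree d < n → coeff d (Φ U) = 0)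
    (hpoly : ∀ q : MvPolynomial σ k, Φ (q : MvPowerSeries σ k) = 0) (U : MvPowerSeries σ k) :
    Φ U = 0 := by
  ext d
  rw [map_zero]
  have h := hord (U - (truncTotal (degree d + 2) U : MvPolynomial σ k)) (degree d + 1)
    (fun e he => by rw [map_sub, MvPolynomial.coeff_coe, coeff_truncTotal _ he, sub_self]) d
    (Nat.lt_succ_self _)
  rw [map_sub, hpoly, sub_zero] at h
  exact h

/-- The substitution X_i ↦ H(X_i, Y_i). -/
def shiftVar (H : FormalGroup k) (i : σ) : MvPowerSeries (σ ⊕ σ) k :=
  subst ![X (Sum.inl i), X (Sum.inr i)] (H : MvPowerSeries (Fin 2) k)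

/-- G(X +_H Y). -/
def shift (H : FormalGroup k) (G : MvPowerSeries σ k) : MvPowerSeries (σ ⊕ σ) k :=
  subst (shiftVar H) G

/-- Setting Y = 0. -/
def setY (F : MvPowerSeries (σ ⊕ σ) k) : MvPowerSeries σ k :=
  subst (Sum.elim X fun _ => 0) F

omit [DecidableEq σ] in
theorem hasSubst_setY : HasSubst (Sum.elim X fun _ => 0 : σ ⊕ σ → MvPowerSeries σ k) :=
  hasSubst_of_constantCoeff_zero (fun s => by cases s <;> simp)

omit [Fintype σ] [DecidableEq σ] in
theorem constantCoeff_shiftVar (H : FormalGroup k) (i : σ) :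
    constantCoeff (shiftVar H i) = 0 :=
  constantCoeff_subst_eq_zero HasSubst.X_X (fun s => by fin_cases s <;> simp) H.zero_constantCoeff

omit [DecidableEq σ] in
theorem hasSubst_shiftVar (H : FormalGroup k) :
    HasSubst (shiftVar H : σ → MvPowerSeries (σ ⊕ σ) k) :=
  hasSubst_of_constantCoeff_zero (constantCoeff_shiftVar H)

omit [DecidableEq σ] in
theorem prod_X_pow (e : σ →₀ ℕ) :
    (∏ i : σ, (X i : MvPowerSeries σ k) ^ e i) = monomial e 1 := by
  rw [monomial_eq', map_one, one_mul, Finsupp.prod_fintype _ _ (fun i => pow_zero _)]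

omit [DecidableEq σ] in
theorem coeff_setY (F : MvPowerSeries (σ ⊕ σ) k) (e : σ →₀ ℕ) :
    coeff e (setY F) = coeff (sumFinsuppEquivProdFinsupp.symm (e, 0)) F := by
  rw [setY, coeff_subst hasSubst_setY,
    finsum_eq_single _ (sumFinsuppEquivProdFinsupp.symm (e, 0))]
  · rw [Finsupp.prod_fintype _ _ (fun i => pow_zero _), Fintype.prod_sum_type]
    simp [prod_X_pow]
  · intro x hx
    rw [Finsupp.prod_fintype _ _ (fun i => pow_zero _), Fintype.prod_sum_type]
    by_cases hr : ∀ i, x (Sum.inr i) = 0
    · simp only [Sum.elim_inl, Sum.elim_inr, hr, pow_zero, Finset.prod_const_one, mul_one]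
      have h1 : (∏ i : σ, (X i : MvPowerSeries σ k) ^ x (Sum.inl i)) =
          monomial (sumFinsuppEquivProdFinsupp x).1 1 := by
        rw [← prod_X_pow]
        rfl
      rw [h1, coeff_monomial_ne, smul_zero]
      intro he
      apply hx
      rw [Equiv.eq_symm_apply, he]
      exact Prod.ext rfl (Finsupp.ext fun i => hr i)
    · push Not at hr
      obtain ⟨i, hi⟩ := hr
      rw [Finset.prod_eq_zero (s := (Finset.univ : Finset σ))
        (f := fun j => Sum.elim X (fun _ => (0 : MvPowerSeries σ k)) (Sum.inr j) ^ x (Sum.inr j))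
        (Finset.mem_univ i) (by simp [hi]), mul_zero, map_zero, smul_zero]

omit [DecidableEq σ] in
theorem setY_shiftVar (H : FormalGroup k) (i : σ) : setY (shiftVar H i) = X i := by
  rw [setY, shiftVar, subst_comp_subst_apply HasSubst.X_X hasSubst_setY]
  have h : (fun s => subst (Sum.elim X fun _ => 0 : σ ⊕ σ → MvPowerSeries σ k)
      ((![X (Sum.inl i), X (Sum.inr i)] : Fin 2 → MvPowerSeries (σ ⊕ σ) k) s)) =
      ![X i, 0] := by
    funext s
    fin_cases s <;> simp [subst_X hasSubst_setY]
  rw [h]
  exact H.add_zero (PowerSeries.HasSubst.X i)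

omit [DecidableEq σ] in
theorem setY_shift (H : FormalGroup k) (G : MvPowerSeries σ k) : setY (shift H G) = G := by
  rw [setY, shift, subst_comp_subst_apply (hasSubst_shiftVar H) hasSubst_setY]
  have h : (fun s => subst (Sum.elim X fun _ => 0 : σ ⊕ σ → MvPowerSeries σ k) (shiftVar H s)) =
      X := funext fun s => setY_shiftVar H s
  rw [h, subst_self, id_eq]

/-- The coefficient of Y_i in G(X +_H Y). -/
def linPart (H : FormalGroup k) (i : σ) (G : MvPowerSeries σ k) : MvPowerSeries σ k :=
  setY (pderiv k (Sum.inr i) (shift H G))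

theorem coeff_linPart (H : FormalGroup k) (i : σ) (G : MvPowerSeries σ k) (e : σ →₀ ℕ) :
    coeff e (linPart H i G) =
      coeff (sumFinsuppEquivProdFinsupp.symm (e, single i 1)) (shift H G) := by
  rw [linPart, coeff_setY, coeff_pderiv]
  simp only [sumFinsuppEquivProdFinsupp_symm_inr, Finsupp.coe_zero, Pi.zero_apply, Nat.cast_zero,
    zero_add, mul_one]
  congr 2
  ext s
  rcases s with s | s
  · simp
  · by_cases hs : s = i
    · subst hs; simp
    · simp [Finsupp.single_eq_of_ne hs,
        Finsupp.single_eq_of_ne (show Sum.inr s ≠ (Sum.inr i : σ ⊕ σ) from fun h => hs (Sum.inr.inj h))]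

/-- The invariant differential, as the dual coefficient. -/
def invForm (H : FormalGroup k) (i : σ) : MvPowerSeries σ k :=
  setY (pderiv k (Sum.inr i) (shiftVar H i))

omit [DecidableEq σ] in
theorem constantCoeff_invForm (H : FormalGroup k) (i : σ) :
    constantCoeff (invForm H i) = 1 := by
  have he : Function.Injective (![Sum.inl i, Sum.inr i] : Fin 2 → σ ⊕ σ) := by
    intro a b hab; fin_cases a <;> fin_cases b <;> simp_all
  have h1 : shiftVar H i =
      rename (⟨![Sum.inl i, Sum.inr i], he⟩ : Fin 2 ↪ σ ⊕ σ) (H : MvPowerSeries (Fin 2) k) := by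
    rw [rename_eq_subst, shiftVar]
    congr 1
    funext s
    fin_cases s <;> rfl
  rw [← coeff_zero_eq_constantCoeff, invForm, coeff_setY, coeff_pderiv, h1]
  have h2 : sumFinsuppEquivProdFinsupp.symm ((0 : σ →₀ ℕ), (0 : σ →₀ ℕ)) + single (Sum.inr i) 1 =
      Finsupp.embDomain (⟨![Sum.inl i, Sum.inr i], he⟩ : Fin 2 ↪ σ ⊕ σ) (single 1 1) := by
    rw [Finsupp.embDomain_single]
    ext s; rcases s with s | s <;> simp
  rw [h2, coeff_embDomain_rename, H.lin_coeff_Y]
  simp

omit [DecidableEq σ] in
theorem linPart_eq (H : FormalGroup k) (i : σ) (G : MvPowerSeries σ k) :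
    linPart H i G = invForm H i * pderiv k i G := by
  classical
  have hs := hasSubst_shiftVar (σ := σ) H
  have hsy := hasSubst_setY (σ := σ) (k := k)
  have hY0 : setY (0 : MvPowerSeries (σ ⊕ σ) k) = 0 := by
    rw [setY, ← coe_substAlgHom hsy, map_zero]
  have hadd : ∀ a b, linPart H i (a + b) = linPart H i a + linPart H i b := by
    intro a b
    simp only [linPart, shift, setY, subst_add hs, map_add, subst_add hsy]
  have hmul : ∀ a b, linPart H i (a * b) = a * linPart H i b + b * linPart H i a := by
    intro a b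
    simp only [linPart, shift, subst_mul hs, Derivation.leibniz, smul_eq_mul, setY, subst_add hsy,
      subst_mul hsy]
    rw [show subst _ (subst (shiftVar H) a) = a from setY_shift H a,
      show subst _ (subst (shiftVar H) b) = b from setY_shift H b]
  let Φ : MvPowerSeries σ k →+ MvPowerSeries σ k :=
    AddMonoidHom.mk' (fun U => linPart H i U - invForm H i * pderiv k i U) (fun a b => by
      simp only [hadd, map_add]; ring)
  have hC : ∀ c : k, linPart H i (C c) = 0 := by
    intro c
    rw [linPart, shift, subst_C, pderiv_C, hY0]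
  have hX : ∀ j, linPart H i (X j) = invForm H i * pderiv k i (X j) := by
    intro j
    by_cases hj : j = i
    · subst hj
      rw [pderiv_X_self, mul_one, linPart, shift, subst_X hs]; rfl
    · rw [pderiv_X_of_ne hj, mul_zero, linPart, shift, subst_X hs]
      have h : pderiv k (Sum.inr i) (shiftVar H j) = 0 := by
        have he : Function.Injective (![Sum.inl j, Sum.inr j] : Fin 2 → σ ⊕ σ) := by
          intro a b hab; fin_cases a <;> fin_cases b <;> simp_all
        ext e
        rw [coeff_pderiv, map_zero]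
        have h1 : shiftVar H j =
            rename (⟨![Sum.inl j, Sum.inr j], he⟩ : Fin 2 ↪ σ ⊕ σ)
              (H : MvPowerSeries (Fin 2) k) := by
          rw [rename_eq_subst, shiftVar]
          congr 1
          funext s
          fin_cases s <;> rfl
        rw [h1, coeff_rename_eq_zero, zero_mul]
        rintro ⟨x, hx⟩
        have := congrArg (fun z => z (Sum.inr i)) hx
        simp only [Finsupp.coe_add, Pi.add_apply, single_eq_same] at this
        rw [Finsupp.mapDomain_of_notMem_range] at this
        · omega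
        · rintro ⟨s, hs⟩
          fin_cases s <;> simp_all
      rw [h, hY0]
  have hpoly : ∀ q : MvPolynomial σ k, Φ (q : MvPowerSeries σ k) = 0 := by
    intro q
    induction q using MvPolynomial.induction_on with
    | C c => simp [Φ, hC]
    | add a b ha hb => rw [MvPolynomial.coe_add, map_add, ha, hb, add_zero]
    | mul_X a j ha =>
      simp only [Φ, AddMonoidHom.mk'_apply] at ha ⊢
      rw [MvPolynomial.coe_mul, MvPolynomial.coe_X, hmul, hX, Derivation.leibniz, smul_eq_mul,
        smul_eq_mul, sub_eq_zero.mp ha]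
      ring
  have hord : ∀ (U : MvPowerSeries σ k) (n : ℕ), (∀ d, degree d < n + 1 → coeff d U = 0) →
      ∀ d, degree d < n → coeff d (Φ U) = 0 := by
    intro U n hU d hd
    simp only [Φ, AddMonoidHom.mk'_apply, map_sub]
    have h1 : coeff d (linPart H i U) = 0 := by
      rw [coeff_linPart]
      refine MvPowerSeries.coeff_of_lt_order ?_
      have hU' : ((n + 1 : ℕ) : ℕ∞) ≤ U.order := MvPowerSeries.nat_le_order hU
      have hdeg : degree (sumFinsuppEquivProdFinsupp.symm (d, single i 1)) = degree d + 1 := by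
        simp [degree_eq_sum, Fintype.sum_sum_type, Finsupp.single_apply]
      have hb : (1 : ℕ∞) ≤ ⨅ s : σ, (shiftVar H s).order := le_iInf fun s =>
        one_le_order_iff_constCoeff_eq_zero.mpr (constantCoeff_shiftVar H s)
      refine lt_of_lt_of_le ?_ (le_order_subst hs U)
      refine lt_of_lt_of_le ?_ (mul_le_mul' hb hU')
      rw [one_mul, hdeg]
      exact_mod_cast Nat.add_lt_add_right hd 1
    have h2 : coeff d (invForm H i * pderiv k i U) = 0 := by
      rw [coeff_mul]
      refine Finset.sum_eq_zero fun x hx => ?_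
      rw [Finset.HasAntidiagonal.mem_antidiagonal] at hx
      rw [coeff_pderiv, hU, zero_mul, mul_zero]
      rw [map_add, degree_single]
      have : degree x.2 ≤ degree d := by rw [← hx, map_add]; exact Nat.le_add_left _ _
      omega
    rw [h1, h2, sub_zero]
  exact sub_eq_zero.mp (eq_zero_of_polynomial Φ hord hpoly G)

end

end Vale.Agent.P217.Rigid
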