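import Vale.Agent.P217.Rigid.Sep
import Vale.Agent.P217.Rigid.Law
import Vale.Agent.P217.Rigid.Deriv

/-!
P217, module M9: the ideal of series vanishing on a set of points closed under a formal sum.
-/

namespace Vale.Agent.P217.Rigid

noncomputable section

open MvPowerSeries

variable {p : ℕ} [Fact p.Prime] {σ : Type*} [Fintype σ]

theorem ord_zero_pos : 0 < ord (0 : C p) := by rw [ord_zero]; exact WithTop.coe_lt_top _

/-- Addition of points for a law over the residue field. -/
abbrev padd (H : FormalGroup (Kb p)) (u v : C p) : C p := fadd p HahnSeries.C H u v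

theorem padd_pos (H : FormalGroup (Kb p)) {u v : C p} (hu : 0 < ord u) (hv : 0 < ord v) :
    0 < ord (padd H u v) :=
  ord_fadd_pos (intCoeff_residue _) hu hv

theorem padd_zero (H : FormalGroup (Kb p)) {u : C p} (hu : 0 < ord u) : padd H u 0 = u := by
  have h := congrArg (fun f => evalC p HahnSeries.C f (fun _ : Unit => u))
    (H.add_zero (σ := Unit) (f := MvPowerSeries.X ()) (PowerSeries.HasSubst.X ()))
  simpa [evalC_fgl_subst (intCoeff_residue _) (intCoeff_X _) intCoeff_zero (constantCoeff_X _)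
    (map_zero _) (fun _ : Unit => hu), evalC_X, evalC_zero] using h

theorem zero_padd (H : FormalGroup (Kb p)) {u : C p} (hu : 0 < ord u) : padd H 0 u = u := by
  have h := congrArg (fun f => evalC p HahnSeries.C f (fun _ : Unit => u))
    (H.zero_add (σ := Unit) (f := MvPowerSeries.X ()) (PowerSeries.HasSubst.X ()))
  simpa [evalC_fgl_subst (intCoeff_residue _) intCoeff_zero (intCoeff_X _) (map_zero _)
    (constantCoeff_X _) (fun _ : Unit => hu), evalC_X, evalC_zero] using h

theorem padd_comm (H : FormalGroup (Kb p)) [H.IsComm] {u v : C p} (hu : 0 < ord u)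
    (hv : 0 < ord v) : padd H u v = padd H v u := by
  have h := congrArg (fun f => evalC p HahnSeries.C f ![v, u])
    (H.comm' (σ := Fin 2) (f := X 0) (g := X 1) (PowerSeries.HasSubst.X _)
      (PowerSeries.HasSubst.X _))
  simpa [evalC_fgl_subst (intCoeff_residue _) (intCoeff_X _) (intCoeff_X _) (constantCoeff_X _)
    (constantCoeff_X _) (vec2_pos hv hu), evalC_X] using h.symm

theorem padd_left_comm (H : FormalGroup (Kb p)) [H.IsComm] {u v w : C p} (hu : 0 < ord u)
    (hv : 0 < ord v) (hw : 0 < ord w) :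
    padd H u (padd H v w) = padd H v (padd H u w) := by
  show fadd p HahnSeries.C H u (fadd p HahnSeries.C H v w) =
    fadd p HahnSeries.C H v (fadd p HahnSeries.C H u w)
  rw [← fadd_assoc (intCoeff_residue _) hu hv hw, ← fadd_assoc (intCoeff_residue _) hv hu hw]
  exact congrArg (fun z => padd H z w) (padd_comm H hu hv)

theorem fsum_pos (H : FormalGroup (Kb p)) :
    ∀ {r : ℕ} (x : Fin r → C p), (∀ i, 0 < ord (x i)) → 0 < ord (fsum p HahnSeries.C H x)
  | 0, _, _ => ord_zero_pos
  | _ + 1, _, hx => padd_pos H (hx 0) (fsum_pos H _ fun i => hx i.succ)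

theorem fsum_succAbove (H : FormalGroup (Kb p)) [H.IsComm] {r : ℕ} (j : Fin (r + 1))
    (x : Fin (r + 1) → C p) (hx : ∀ i, 0 < ord (x i)) :
    fsum p HahnSeries.C H x = padd H (x j) (fsum p HahnSeries.C H fun i => x (j.succAbove i)) := by
  induction r with
  | zero =>
    obtain rfl : j = 0 := Fin.ext (by omega)
    rfl
  | succ r ih =>
    induction j using Fin.cases with
    | zero => rfl
    | succ j =>
      have hR : (fsum p HahnSeries.C H fun i => x (j.succ.succAbove i)) =
          padd H (x (j.succ.succAbove 0))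
            (fsum p HahnSeries.C H fun i => x (j.succ.succAbove i.succ)) := rfl
      have hL : fsum p HahnSeries.C H x =
          padd H (x 0) (fsum p HahnSeries.C H fun i => x i.succ) := rfl
      rw [hR, hL, ih j (fun i => x i.succ) (fun i => hx _),
        padd_left_comm H (hx 0) (hx _) (fsum_pos H _ fun i => hx _), Fin.succ_succAbove_zero]
      simp only [Fin.succ_succAbove_succ]

theorem fsum_eq_zero (H : FormalGroup (Kb p)) :
    ∀ {r : ℕ} (x : Fin r → C p), (∀ i, x i = 0) → fsum p HahnSeries.C H x = 0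
  | 0, _, _ => rfl
  | _ + 1, x, hx => by
    show padd H (x 0) _ = 0
    rw [hx 0, fsum_eq_zero H _ fun i => hx i.succ, padd_zero H ord_zero_pos]

/-- Series vanishing on a set of points. -/
def vanishing (S : Set (σ → C p)) (hpos : ∀ x ∈ S, ∀ i, 0 < ord (x i)) :
    Ideal (MvPowerSeries σ (Kb p)) where
  carrier := {G | ∀ x ∈ S, ev G x = 0}
  add_mem' := fun {a b} ha hb x hx => by
    rw [ev, evalC_add (intCoeff_residue _) (intCoeff_residue _) (hpos x hx)]
    simp [ha x hx, hb x hx]
  zero_mem' := fun x _ => evalC_zero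
  smul_mem' := fun c {a} ha x hx => by
    rw [smul_eq_mul, ev, evalC_mul (intCoeff_residue _) (intCoeff_residue _) (hpos x hx)]
    simp [ha x hx]

theorem constantCoeff_eq_zero {G : MvPowerSeries σ (Kb p)} {x : σ → C p}
    (hx : ∀ i, 0 < ord (x i)) (h : ev G x = 0) : constantCoeff G = 0 := by
  by_contra hc
  have h1 : 0 < ord (ev (G - MvPowerSeries.C (constantCoeff G)) x) :=
    ord_evalC_pos (intCoeff_residue _) (by simp) hx
  rw [ev, evalC_sub (intCoeff_residue _) (intCoeff_residue _) hx, evalC_C] at h1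
  simp only [ev] at h
  rw [h, zero_sub, ord_neg] at h1
  simp [ord, HahnSeries.C_apply, HahnSeries.orderTop_single hc] at h1

theorem ev_zero_point {G : MvPowerSeries σ (Kb p)} (hG : constantCoeff G = 0) :
    ev G (fun _ => 0) = 0 := by
  classical
  refine HasEvalC.evalC_eq ?_
  have h : (fun d : σ →₀ ℕ => HahnSeries.C (MvPowerSeries.coeff d G) * ∏ i : σ, (0 : C p) ^ d i) =
      fun _ => 0 := by
    funext d
    by_cases hd : d = 0
    · subst hd; simp [hG]
    · obtain ⟨i, hi⟩ := Finsupp.ne_iff.mp hd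
      have hi' : d i ≠ 0 := by simpa using hi
      rw [Finset.prod_eq_zero (Finset.mem_univ i) (zero_pow hi'), mul_zero]
  show HasSumC p _ 0
  rw [h]
  exact hasSumC_zero

theorem ev_shift (H : FormalGroup (Kb p)) (G : MvPowerSeries σ (Kb p)) {x y : σ → C p}
    (hx : ∀ i, 0 < ord (x i)) (hy : ∀ i, 0 < ord (y i)) :
    ev (shift H G) (Sum.elim x y) = ev G (fun i => padd H (x i) (y i)) := by
  have hxy : ∀ s, 0 < ord (Sum.elim x y s) := fun s => by cases s <;> simp [hx, hy]
  rw [ev, shift, evalC_subst (intCoeff_residue _) (fun _ => intCoeff_residue _)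
    (constantCoeff_shiftVar H) hxy]
  refine congrArg (evalC p HahnSeries.C G) (funext fun i => ?_)
  rw [shiftVar, evalC_fgl_subst (intCoeff_residue _) (intCoeff_X _) (intCoeff_X _)
    (constantCoeff_X _) (constantCoeff_X _) hxy, evalC_X, evalC_X]
  rfl

/-- The coefficient of Y^j, a series in X. -/
def slice (T : MvPowerSeries (σ ⊕ σ) (Kb p)) (j : σ →₀ ℕ) : MvPowerSeries σ (Kb p) :=
  fun e => coeff (Finsupp.sumFinsuppEquivProdFinsupp.symm (e, j)) T

theorem hasSumC_slice (T : MvPowerSeries (σ ⊕ σ) (Kb p)) {x y : σ → C p}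
    (hx : ∀ i, 0 < ord (x i)) (hy : ∀ i, 0 < ord (y i)) :
    HasSumC p (fun j => ev (slice T j) x * ∏ i, y i ^ j i) (ev T (Sum.elim x y)) := by
  classical
  have hxy : ∀ s, 0 < ord (Sum.elim x y s) := fun s => by cases s <;> simp [hx, hy]
  refine HasSumC.fiberwise (fun d : σ ⊕ σ →₀ ℕ => (Finsupp.sumFinsuppEquivProdFinsupp d).2)
    (hasEvalC (intCoeff_residue T) hxy) fun j => ?_
  refine (HasSumC.comp_injective_iff
    (e := fun e => Finsupp.sumFinsuppEquivProdFinsupp.symm (e, j))
    (fun e e' h => congrArg Prod.fst (Finsupp.sumFinsuppEquivProdFinsupp.symm.injective h))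
    fun d hd => if_neg fun h => hd ⟨(Finsupp.sumFinsuppEquivProdFinsupp d).1, ?_⟩).mp ?_
  · simp [← h]
  · convert (hasEvalC (intCoeff_residue (slice T j)) hx).mul_const (∏ i, y i ^ j i) using 1
    funext e
    simp only [Function.comp_apply, Equiv.apply_symm_apply, if_pos]
    rw [Fintype.prod_sum_type]
    simp only [slice, MvPowerSeries.coeff_apply, Sum.elim_inl, Sum.elim_inr,
      Finsupp.sumFinsuppEquivProdFinsupp_symm_inl, Finsupp.sumFinsuppEquivProdFinsupp_symm_inr]
    ring

/-- If T vanishes on S x S, then coefficientwise functionals of its slices vanish on S. -/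
theorem slice_mem {h : ℕ} (hh : 1 ≤ h) {S : Set (σ → C p)}
    (hpos : ∀ x ∈ S, ∀ i, 0 < ord (x i)) (hfrob : ∀ x ∈ S, (fun i => x i ^ p ^ h) ∈ S)
    {T : MvPowerSeries (σ ⊕ σ) (Kb p)} {x : σ → C p} (hx : ∀ i, 0 < ord (x i))
    (hT : ∀ y ∈ S, ev T (Sum.elim x y) = 0) (q : ℚ) :
    (show MvPowerSeries σ (Kb p) from fun j => (ev (slice T j) x).coeff q) ∈ vanishing S hpos := by
  intro y hy
  refine ev_linear_eq_zero h hh S hpos hfrob (fun j => ev (slice T j) x)
    (fun j => ord_evalC_nonneg (intCoeff_residue _) hx) (fun y hy => ?_)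
    (HahnSeries.coeff.addMonoidHom q) (fun c z => ?_) hy
  · rw [← hT y hy]
    exact hasSumC_slice T hx (hpos y hy)
  · show (HahnSeries.C c * z).coeff q = c * z.coeff q
    rw [HahnSeries.C_mul_eq_smul, HahnSeries.coeff_smul, smul_eq_mul]

theorem eq_zero_of_vanishing_prod {h : ℕ} (hh : 1 ≤ h) {S : Set (σ → C p)}
    (hpos : ∀ x ∈ S, ∀ i, 0 < ord (x i)) (hfrob : ∀ x ∈ S, (fun i => x i ^ p ^ h) ∈ S)
    (hbot : vanishing S hpos = ⊥) {T : MvPowerSeries (σ ⊕ σ) (Kb p)}
    (hT : ∀ x ∈ S, ∀ y ∈ S, ev T (Sum.elim x y) = 0) : T = 0 := by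
  have key : ∀ x ∈ S, ∀ j, ev (slice T j) x = 0 := by
    intro x hx j
    ext q
    have h1 := slice_mem hh hpos hfrob (hpos x hx) (hT x hx) q
    rw [hbot, Ideal.mem_bot] at h1
    exact congrFun h1 j
  ext d
  have h2 : slice T (Finsupp.sumFinsuppEquivProdFinsupp d).2 ∈ vanishing S hpos :=
    fun x hx => key x hx _
  rw [hbot, Ideal.mem_bot] at h2
  have h3 := congrArg (coeff (Finsupp.sumFinsuppEquivProdFinsupp d).1) h2
  rw [map_zero] at h3 ⊢
  simpa [slice, MvPowerSeries.coeff_apply] using h3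

/-- A nonzero ideal of vanishing series contains one with a nonzero linear coefficient. -/
theorem exists_linear_coeff {h : ℕ} (hh : 1 ≤ h) (H : FormalGroup (Kb p)) {S : Set (σ → C p)}
    (hne : S.Nonempty) (hpos : ∀ x ∈ S, ∀ i, 0 < ord (x i))
    (hadd : ∀ x ∈ S, ∀ y ∈ S, (fun i => padd H (x i) (y i)) ∈ S)
    (hfrob : ∀ x ∈ S, (fun i => x i ^ p ^ h) ∈ S) (hbot : vanishing S hpos ≠ ⊥) :
    ∃ G ∈ vanishing S hpos, ∃ i, coeff (Finsupp.single i 1) G ≠ 0 := by
  classical
  by_contra hc
  push Not at hc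
  refine hbot (eq_bot_of_stable p _ ?_ ?_ ?_)
  · obtain ⟨x, hx⟩ := hne
    exact fun G hG => constantCoeff_eq_zero (hpos x hx) (hG x hx)
  · intro G hG i
    have hlin : linPart H i G ∈ vanishing S hpos := by
      intro x hx
      ext q
      have h1 := slice_mem hh hpos hfrob (T := shift H G) (hpos x hx) (fun y hy => by
        rw [ev_shift H G (hpos x hx) (hpos y hy)]; exact hG _ (hadd x hx y hy)) q
      have h2 : slice (shift H G) (Finsupp.single i 1) = linPart H i G := by
        ext e
        rw [coeff_linPart]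
        rfl
      rw [← h2]
      exact hc _ h1 i
    have h3 : pderiv (Kb p) i G = (invForm H i)⁻¹ * linPart H i G := by
      rw [linPart_eq, ← mul_assoc, MvPowerSeries.inv_mul_cancel _
        (by rw [constantCoeff_invForm]; exact one_ne_zero), one_mul]
    rw [h3]
    exact (vanishing S hpos).mul_mem_left _ hlin
  · intro G hG x hx
    have h1 := hG x hx
    rw [ev, evalC_pow (intCoeff_residue G) (hpos x hx)] at h1
    exact (pow_eq_zero_iff (Fact.out : p.Prime).ne_zero).mp h1

/-- Two roots with the same other coordinates agree. -/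
theorem root_unique [DecidableEq σ] {G : MvPowerSeries σ (Kb p)} {j : σ}
    (hc : coeff (Finsupp.single j 1) G ≠ 0) {x y : σ → C p} (hx : ∀ i, 0 < ord (x i))
    (hy : ∀ i, 0 < ord (y i)) (heq : ∀ i, i ≠ j → x i = y i) (hGx : ev G x = 0)
    (hGy : ev G y = 0) : x j = y j := by
  by_contra hne
  have hδ : x j - y j ≠ 0 := sub_ne_zero.mpr hne
  obtain ⟨ε, hε0, hε⟩ := exists_pos_bound hx
  obtain ⟨η, hη0, hη⟩ := exists_pos_bound hy
  set μ : ℚ := min ε η
  have hμ0 : 0 < μ := lt_min hε0 hη0
  have hμx : ∀ i, (μ : WithTop ℚ) ≤ ord (x i) := fun i =>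
    (WithTop.coe_le_coe.mpr (min_le_left _ _)).trans (hε i)
  have hμy : ∀ i, (μ : WithTop ℚ) ≤ ord (y i) := fun i =>
    (WithTop.coe_le_coe.mpr (min_le_right _ _)).trans (hη i)
  obtain ⟨γ, hγ⟩ := WithTop.ne_top_iff_exists.mp (mt ord_eq_top.mp hδ)
  set c := coeff (Finsupp.single j 1) G
  have hsum := (hasEvalC (intCoeff_residue G) hx).sub (hasEvalC (intCoeff_residue G) hy)
  simp only [ev] at hGx hGy
  rw [hGx, hGy, sub_zero] at hsum
  have hlin : HasSumC p
      (fun d => if d = Finsupp.single j 1 then HahnSeries.C c * (x j - y j) else 0)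
      (HahnSeries.C c * (x j - y j)) := by
    have := hasSumC_of_support_subset
      (a := fun d => if d = Finsupp.single j 1 then HahnSeries.C c * (x j - y j) else 0)
      {Finsupp.single j 1} fun d hd => if_neg fun h => hd (Finset.mem_singleton.mpr h)
    simpa using this
  have hrest := hsum.sub hlin
  have hprod1 : ∀ z : σ → C p, ∏ i, z i ^ (Finsupp.single j 1) i = z j := by
    intro z
    rw [Finset.prod_eq_single j (fun i _ hi => by simp [Finsupp.single_eq_of_ne hi]) (by simp)]
    simp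
  have hle : (((γ + μ : ℚ)) : WithTop ℚ) ≤ ord (0 - HahnSeries.C c * (x j - y j)) := by
    refine hrest.le_ord fun d => ?_
    by_cases hd : d = Finsupp.single j 1
    · subst hd
      rw [if_pos rfl, hprod1, hprod1, ← mul_sub, sub_self, ord_zero]
      exact le_top
    rw [if_neg hd, sub_zero, ← mul_sub, ord_mul]
    refine le_trans ?_ (le_add_of_nonneg_left (ord_C_nonneg _))
    have hye : ∏ i ∈ Finset.univ.erase j, y i ^ d i = ∏ i ∈ Finset.univ.erase j, x i ^ d i :=
      Finset.prod_congr rfl fun i hi => by rw [heq i (Finset.ne_of_mem_erase hi)]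
    rw [← Finset.mul_prod_erase _ _ (Finset.mem_univ j),
      ← Finset.mul_prod_erase _ (fun i => y i ^ d i) (Finset.mem_univ j), hye, ← sub_mul]
    rcases Nat.eq_zero_or_pos (d j) with hdj | hdj
    · simp [hdj]
    rw [← geom_sum₂_mul, ord_mul, ord_mul, add_comm γ μ, WithTop.coe_add, hγ, add_right_comm]
    refine add_le_add ?_ le_rfl
    by_cases hd1 : d j = 1
    · obtain ⟨i, hij, hi⟩ : ∃ i, i ≠ j ∧ d i ≠ 0 := by
        by_contra hc'
        push Not at hc'
        refine hd (Finsupp.ext fun i => ?_)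
        by_cases hi : i = j
        · subst hi; simp [hd1]
        · simp [hc' i hi, Finsupp.single_eq_of_ne hi]
      refine le_trans ?_ (le_add_of_nonneg_left ?_)
      · rw [← Finset.mul_prod_erase _ _ (Finset.mem_erase.mpr ⟨hij, Finset.mem_univ i⟩), ord_mul,
          ord_pow]
        refine le_trans ?_ (le_add_of_nonneg_right
          ((OC p).prod_mem fun l _ => (OC p).pow_mem (hx l).le _))
        obtain ⟨k, hk⟩ := Nat.exists_eq_succ_of_ne_zero hi
        rw [hk, Nat.succ_eq_add_one, succ_nsmul]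
        exact (hμx i).trans (le_add_of_nonneg_left (nsmul_nonneg (hx i).le k))
      · simp [hd1]
    · refine le_trans ?_ (le_add_of_nonneg_right
        ((OC p).prod_mem fun l _ => (OC p).pow_mem (hx l).le _))
      refine le_ord_sum _ fun l hl => ?_
      rw [ord_mul, ord_pow, ord_pow]
      rcases Nat.eq_zero_or_pos l with hl0 | hl0
      · obtain ⟨k, hk⟩ := Nat.exists_eq_succ_of_ne_zero (show d j - 1 - l ≠ 0 by omega)
        rw [hk, hl0, zero_nsmul, zero_add, Nat.succ_eq_add_one, succ_nsmul]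
        exact (hμy j).trans (le_add_of_nonneg_left (nsmul_nonneg (hy j).le k))
      · obtain ⟨k, hk⟩ := Nat.exists_eq_succ_of_ne_zero hl0.ne'
        rw [hk, Nat.succ_eq_add_one, succ_nsmul]
        exact ((hμx j).trans (le_add_of_nonneg_left (nsmul_nonneg (hx j).le k))).trans
          (le_add_of_nonneg_right (nsmul_nonneg (hy j).le _))
  rw [zero_sub, ord_neg, ord_mul, ← hγ, ord, HahnSeries.C_apply,
    HahnSeries.orderTop_single hc] at hle
  norm_cast at hle
  linarith

end

end Vale.Agent.P217.Rigid
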